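import Vale.Agent.P337.Main

namespace Vale.Agent.Results.P337.InCH

open Vale.Agent.P337

theorem result : ∃ j : ℕ, ETR ∈ Level j := cf_level etr_cf

end Vale.Agent.Results.P337.InCH
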